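import Vale.Agent.P281.H713.TZ.Iface
import Vale.Agent.P281.H76.Red2
import Vale.Agent.P281.ISO.Ext3
import Vale.Agent.P281.MF.Loc

/-! P281 (helper413): row Z1 of TZ, generic points of a hypersurface. -/

open Set Filter Metric Topology
open scoped ContDiff

namespace Vale.Agent.P281.H413.TZ

variable {E : Type} [NormedAddCommGroup E] [NormedSpace ℂ E]

/-- directional derivative -/
noncomputable def dd (v : E) (g : E → ℂ) : E → ℂ := fun x => fderiv ℂ g x v

theorem dd_analytic {v : E} {g : E → ℂ} {x : E} (hg : AnalyticAt ℂ g x) :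
    AnalyticAt ℂ (dd v g) x :=
  ((ContinuousLinearMap.apply ℂ ℂ v).analyticAt _).comp hg.fderiv

theorem dd_iter_analytic {v : E} {g : E → ℂ} {x : E} (hg : AnalyticAt ℂ g x) (k : ℕ) :
    AnalyticAt ℂ ((dd v)^[k] g) x := by
  induction k with
  | zero => exact hg
  | succ k ih => rw [Function.iterate_succ_apply']; exact dd_analytic ih

/-- iterated derivatives along a line -/
theorem iteratedDeriv_line {v : E} {g : E → ℂ} {x : E} (hg : AnalyticAt ℂ g x) (k : ℕ) :
    ∀ᶠ t in 𝓝 (0 : ℂ), iteratedDeriv k (fun s : ℂ => g (x + s • v)) t =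
      (dd v)^[k] g (x + t • v) := by
  induction k with
  | zero => exact Eventually.of_forall fun t => by simp
  | succ k ih =>
    have hline : Tendsto (fun t : ℂ => x + t • v) (𝓝 0) (𝓝 x) := by
      have : Continuous fun t : ℂ => x + t • v := by fun_prop
      simpa using this.tendsto 0
    filter_upwards [ih.eventually_nhds,
      hline.eventually (dd_iter_analytic (v := v) hg k).eventually_analyticAt] with t h1 h2
    have h1' : (fun t : ℂ => iteratedDeriv k (fun s : ℂ => g (x + s • v)) t) =ᶠ[𝓝 t]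
        fun t => (dd v)^[k] g (x + t • v) := h1
    rw [iteratedDeriv_succ, Filter.EventuallyEq.deriv_eq h1', Function.iterate_succ_apply']
    have h3 : HasDerivAt (fun s : ℂ => x + s • v) v t := by
      simpa using ((hasDerivAt_id t).smul_const v).const_add x
    exact (h2.differentiableAt.hasFDerivAt.comp_hasDerivAt t h3).deriv

/-- a function which is not identically zero is so on a line. -/
theorem exists_line {g : E → ℂ} {x : E} (hg : AnalyticAt ℂ g x)
    (hne : ¬ ∀ᶠ z in 𝓝 x, g z = 0) :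
    ∃ v : E, ¬ ∀ᶠ t in 𝓝 (0 : ℂ), g (x + t • v) = 0 := by
  obtain ⟨r, hr, hball⟩ := Metric.eventually_nhds_iff_ball.1 hg.eventually_analyticAt
  obtain ⟨y, hy, hyb⟩ : ∃ y, g y ≠ 0 ∧ y ∈ ball x r :=
    ((not_eventually.1 hne).and_eventually (ball_mem_nhds x hr)).exists
  refine ⟨y - x, fun hz => hy ?_⟩
  have hT : Convex ℝ {t : ℂ | t • (y - x) ∈ ball (0 : E) r} :=
    (convex_ball (0 : E) r).is_linear_preimage
      (f := fun t : ℂ => t • (y - x))
      { map_add := fun a b => add_smul a b _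
        map_smul := fun a b => smul_assoc a b _ }
  have han : AnalyticOnNhd ℂ (fun t : ℂ => g (x + t • (y - x)))
      {t : ℂ | t • (y - x) ∈ ball (0 : E) r} := by
    intro t ht
    have h1 : AnalyticAt ℂ g (x + t • (y - x)) := by
      refine hball _ ?_
      rw [mem_ball, dist_eq_norm]
      simpa using ht
    have h2 : AnalyticAt ℂ (fun t : ℂ => x + t • (y - x)) t :=
      analyticAt_const.add (analyticAt_id.smul analyticAt_const)
    exact AnalyticAt.fun_comp (g := g) (f := fun t : ℂ => x + t • (y - x)) h1 h2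
  have h0 : (0 : ℂ) ∈ {t : ℂ | t • (y - x) ∈ ball (0 : E) r} := by simpa using hr
  have h1 : (1 : ℂ) ∈ {t : ℂ | t • (y - x) ∈ ball (0 : E) r} := by
    change (1 : ℂ) • (y - x) ∈ ball (0 : E) r
    rw [one_smul, mem_ball_zero_iff, ← dist_eq_norm]
    exact hyb
  have := han.eqOn_zero_of_preconnected_of_eventuallyEq_zero hT.isPreconnected h0 hz h1
  simpa using this

theorem not_ev_zero {e : E → ℂ} {y : E} (hd : fderiv ℂ e y ≠ 0) : ∃ᶠ z in 𝓝 y, e z ≠ 0 := by
  rw [← not_eventually.trans (Iff.rfl)]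
  intro h
  have : e =ᶠ[𝓝 y] fun _ => 0 := h
  exact hd (by rw [this.fderiv_eq]; simp)

section FD

variable [FiniteDimensional ℂ E]

/-- smooth points of the zero set, with a reduced equation -/
theorem exists_smooth {Den : E → ℂ} {x₀ : E} (hD : AnalyticAt ℂ Den x₀)
    (hne : ¬ ∀ᶠ x in 𝓝 x₀, Den x = 0) (h0 : Den x₀ = 0) {U : Set E} (hU : U ∈ 𝓝 x₀) :
    ∃ y ∈ U, Den y = 0 ∧ ∃ e : E → ℂ, AnalyticAt ℂ e y ∧ e y = 0 ∧ fderiv ℂ e y ≠ 0 ∧
      ∀ᶠ z in 𝓝 y, Den z = 0 ↔ e z = 0 := by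
  classical
  obtain ⟨v, hv⟩ := exists_line hD hne
  have hline : Tendsto (fun t : ℂ => x₀ + t • v) (𝓝 0) (𝓝 x₀) := by
    have : Continuous fun t : ℂ => x₀ + t • v := by fun_prop
    simpa using this.tendsto 0
  have hφ : AnalyticAt ℂ (fun t : ℂ => Den (x₀ + t • v)) 0 := by
    have h1 : AnalyticAt ℂ Den (x₀ + (0 : ℂ) • v) := by simpa using hD
    have h2 : AnalyticAt ℂ (fun t : ℂ => x₀ + t • v) 0 :=
      analyticAt_const.add (analyticAt_id.smul analyticAt_const)
    exact AnalyticAt.fun_comp (g := Den) (f := fun t : ℂ => x₀ + t • v) h1 h2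
  have hk : ∃ k, (dd v)^[k] Den x₀ ≠ 0 := by
    by_contra hcon
    push Not at hcon
    refine hv (analyticOrderAt_eq_top.1 (ENat.eq_top_iff_forall_ge.2 fun m => ?_))
    rw [natCast_le_analyticOrderAt_iff_iteratedDeriv_eq_zero hφ]
    intro i _
    have := (iteratedDeriv_line (v := v) hD i).self_of_nhds
    rw [this]
    simpa using hcon i
  obtain ⟨B, hB, hBo, hxB⟩ := _root_.eventually_nhds_iff.1
    (hD.eventually_analyticAt.and (show ∀ᶠ z in 𝓝 x₀, z ∈ U from hU))
  have hex : ∃ k, ∃ y ∈ B, Den y = 0 ∧ (dd v)^[k] Den y ≠ 0 := by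
    obtain ⟨k, hk⟩ := hk
    exact ⟨k, x₀, hxB, h0, hk⟩
  obtain ⟨y, hyB, hy0, hyk⟩ := Nat.find_spec hex
  have hmin : ∀ j < Nat.find hex, ∀ z ∈ B, Den z = 0 → (dd v)^[j] Den z = 0 := by
    intro j hj z hz hz0
    by_contra hcon
    exact Nat.find_min hex hj ⟨z, hz, hz0, hcon⟩
  obtain ⟨m, hm⟩ : ∃ m, Nat.find hex = m + 1 := by
    refine Nat.exists_eq_succ_of_ne_zero fun h => ?_
    rw [h] at hyk
    exact hyk hy0
  rw [hm] at hyk hmin
  rw [Function.iterate_succ_apply'] at hyk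
  set e : E → ℂ := (dd v)^[m] Den with he
  have hsub : ∀ z ∈ B, Den z = 0 → e z = 0 := hmin m (Nat.lt_succ_self m)
  have hDy : AnalyticAt ℂ Den y := (hB y hyB).1
  have hea : AnalyticAt ℂ e y := dd_iter_analytic hDy m
  have hey : e y = 0 := hsub y hyB hy0
  have hed : fderiv ℂ e y ≠ 0 := by
    intro h
    apply hyk
    change fderiv ℂ e y v = 0
    rw [h]; rfl
  refine ⟨y, (hB y hyB).2, hy0, e, hea, hey, hed, ?_⟩
  obtain ⟨V, hVo, hyV, hV⟩ := Vale.Agent.P281.MF.local_ident hea hDy hey hed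
  have hVn : ∀ᶠ z in 𝓝 y, z ∈ V := hVo.mem_nhds hyV
  have hBn : ∀ᶠ z in 𝓝 y, z ∈ B := hBo.mem_nhds hyB
  by_cases hcase : ∃ o ∈ V, e o = 0 ∧ ∀ᶠ w in 𝓝 o, e w = 0 → Den w = 0
  · filter_upwards [hVn, hBn] with z h1 h2
    exact ⟨hsub z h2, hV hcase z h1⟩
  exfalso
  push Not at hcase
  have hnf := not_ev_zero hed
  obtain ⟨Q, hQ, hQe⟩ := Vale.Agent.P281.MF.extend_off (h := fun z => (Den z)⁻¹) hea
    (not_eventually.2 hnf)
    (by
      filter_upwards [hBn] with z hz hez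
      exact ((hB z hz).1.differentiableAt).inv fun h => hez (hsub z hz h))
    (by
      filter_upwards [hVn, hBn] with z h1 h2 hz0
      rw [mem_closure_iff_frequently]
      have hfr : ∃ᶠ w in 𝓝 z, e w = 0 ∧ Den w ≠ 0 := by
        have := hcase z h1 hz0
        exact this.mono fun w hw => by simpa using hw
      refine (hfr.and_eventually (hBo.mem_nhds h2)).mono ?_
      rintro w ⟨⟨hw0, hwD⟩, hwB⟩
      refine ⟨hw0, ‖(Den w)⁻¹‖ + 1, ?_⟩
      have hc : ContinuousAt (fun z => (Den z)⁻¹) w := (hB w hwB).1.continuousAt.inv₀ hwD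
      filter_upwards [hc.norm.eventually_lt continuousAt_const
        (show ‖(Den w)⁻¹‖ < ‖(Den w)⁻¹‖ + 1 by linarith)] with z hz _
      exact hz.le)
  have hc : ContinuousAt (fun z => ‖Den z * Q z‖) y := (hDy.continuousAt.mul hQ.continuousAt).norm
  have hlt : ∀ᶠ z in 𝓝 y, ‖Den z * Q z‖ < 1 :=
    hc.eventually_lt continuousAt_const (by simp [hy0])
  obtain ⟨z, hez, h1, h2, h3⟩ := (hnf.and_eventually (hQe.and (hlt.and hBn))).exists
  have h4 : Den z ≠ 0 := fun h => hez (hsub z h3 h)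
  rw [← h1 hez, mul_inv_cancel₀ h4] at h2
  simp at h2

/-- maximal power of a reduced equation dividing a function -/
theorem exists_pow {e b : E → ℂ} {y : E} (he : AnalyticAt ℂ e y) (h0 : e y = 0)
    (hd : fderiv ℂ e y ≠ 0) (hb : AnalyticAt ℂ b y) (hne : ¬ ∀ᶠ z in 𝓝 y, b z = 0) :
    ∃ (k : ℕ) (u : E → ℂ), AnalyticAt ℂ u y ∧ (∀ᶠ z in 𝓝 y, b z = e z ^ k * u z) ∧
      ∃ᶠ z in 𝓝 y, e z = 0 ∧ u z ≠ 0 := by
  obtain ⟨v, hv⟩ := exists_line hb hne
  have hline : Tendsto (fun t : ℂ => y + t • v) (𝓝 0) (𝓝 y) := by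
    have : Continuous fun t : ℂ => y + t • v := by fun_prop
    simpa using this.tendsto 0
  have han : ∀ g : E → ℂ, AnalyticAt ℂ g y → AnalyticAt ℂ (fun t : ℂ => g (y + t • v)) 0 := by
    intro g hg
    have h1 : AnalyticAt ℂ g (y + (0 : ℂ) • v) := by simpa using hg
    have h2 : AnalyticAt ℂ (fun t : ℂ => y + t • v) 0 :=
      analyticAt_const.add (analyticAt_id.smul analyticAt_const)
    exact AnalyticAt.fun_comp (g := g) (f := fun t : ℂ => y + t • v) h1 h2
  have hbound : ∀ k : ℕ, (∃ u : E → ℂ, AnalyticAt ℂ u y ∧ ∀ᶠ z in 𝓝 y, b z = e z ^ k * u z) →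
      (k : ℕ∞) ≤ analyticOrderAt (fun t : ℂ => b (y + t • v)) 0 := by
    rintro k ⟨u, hu, hbu⟩
    have h1 : (fun t : ℂ => b (y + t • v)) =ᶠ[𝓝 0]
        ((fun t : ℂ => e (y + t • v)) ^ k * fun t : ℂ => u (y + t • v)) := by
      filter_upwards [hline.eventually hbu] with t ht
      simpa using ht
    rw [analyticOrderAt_congr h1, analyticOrderAt_mul ((han e he).pow k) (han u hu),
      analyticOrderAt_pow (han e he)]
    have h2 : (1 : ℕ∞) ≤ analyticOrderAt (fun t : ℂ => e (y + t • v)) 0 := by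
      rw [Order.one_le_iff_ne_zero, (han e he).analyticOrderAt_ne_zero]
      simpa using h0
    calc (k : ℕ∞) = k • (1 : ℕ∞) := by simp
      _ ≤ k • analyticOrderAt (fun t : ℂ => e (y + t • v)) 0 := nsmul_le_nsmul_right h2 k
      _ ≤ _ := le_self_add
  have htop : analyticOrderAt (fun t : ℂ => b (y + t • v)) 0 ≠ ⊤ := by
    rw [Ne, analyticOrderAt_eq_top]
    exact hv
  by_contra hcon
  push Not at hcon
  have hall : ∀ k : ℕ, ∃ u : E → ℂ, AnalyticAt ℂ u y ∧ ∀ᶠ z in 𝓝 y, b z = e z ^ k * u z := by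
    intro k
    induction k with
    | zero => exact ⟨b, hb, by simp⟩
    | succ k ih =>
      obtain ⟨u, hu, hbu⟩ := ih
      have hz : ∀ᶠ z in 𝓝 y, e z = 0 → u z = 0 := by
        have := hcon k u hu hbu
        simpa using this
      obtain ⟨F, hF, hFe⟩ := Vale.Agent.P281.H76.div_flat (g := e) (g' := u) (x := y)
        (he.eventually_analyticAt.mono fun z hz => hz.differentiableAt)
        (hu.eventually_analyticAt.mono fun z hz => hz.differentiableAt) hz
        (by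
          have hdn : ∀ᶠ z in 𝓝 y, fderiv ℂ e z ≠ 0 :=
            he.fderiv.continuousAt.eventually_ne hd
          filter_upwards [hdn] with z hz1 hz2 hcon'
          exact hcon'.self_of_nhds ⟨hz2, hz1⟩)
        (not_ev_zero hd)
      refine ⟨F, hF.analyticAt, ?_⟩
      filter_upwards [hbu, hFe] with z h1 h2
      rw [h1, h2]
      ring
  exact htop (ENat.eq_top_iff_forall_ge.2 fun k => hbound k (hall k))

end FD

omit [NormedSpace ℂ E] in
/-- finitely many open dense conditions -/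
theorem finite_dense {ι : Type} (s : Finset ι) (S W : Set E) (G : ι → E → Prop)
    (hG : ∀ i y, G i y → ∀ᶠ z in 𝓝 y, G i z) (hW : IsOpen W)
    (hd : ∀ i, ∀ y ∈ W, y ∈ S → ∃ᶠ z in 𝓝 y, z ∈ S ∧ G i z) :
    ∀ y ∈ W, y ∈ S → ∃ᶠ z in 𝓝 y, z ∈ S ∧ ∀ i ∈ s, G i z := by
  classical
  induction s using Finset.induction_on with
  | empty =>
    intro y _ hy h
    exact h.self_of_nhds ⟨hy, by simp⟩
  | insert i s _ ih =>
    intro y hyW hy
    rw [← frequently_frequently_nhds]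
    refine ((ih y hyW hy).and_eventually (hW.mem_nhds hyW)).mono ?_
    rintro z ⟨⟨hz, hzs⟩, hzW⟩
    have h1 : ∀ᶠ w in 𝓝 z, ∀ j ∈ s, G j w := by
      rw [Filter.eventually_all_finset]
      exact fun j hj => hG j z (hzs j hj)
    refine ((hd i z hzW hz).and_eventually h1).mono ?_
    rintro w ⟨⟨h2, h3⟩, h4⟩
    refine ⟨h2, fun j hj => ?_⟩
    rcases Finset.mem_insert.1 hj with rfl | hj
    · exact h3
    · exact h4 j hj

/-- **Row Z1 of TZ.** -/
theorem genPart : Vale.Agent.P281.H713.TZ.GenPart := by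
  intro E _ _ _ Den x₀ hD hne h0 ι _ b hb U hU
  classical
  have : Fintype ι := Fintype.ofFinite ι
  have hball : ∀ᶠ z in 𝓝 x₀, ∀ i, AnalyticAt ℂ (b i) z :=
    eventually_all.2 fun i => (hb i).eventually_analyticAt
  obtain ⟨N, hN, hNo, hxN⟩ := _root_.eventually_nhds_iff.1
    (hball.and (show ∀ᶠ z in 𝓝 x₀, z ∈ U from hU))
  obtain ⟨y, hyN, hy0, e, hea, hey, hed, heq⟩ := exists_smooth hD hne h0 (hNo.mem_nhds hxN)
  have hyN' : ∀ᶠ z in 𝓝 y, z ∈ N := hNo.mem_nhds hyN
  obtain ⟨W, hW, hWo, hyW⟩ := _root_.eventually_nhds_iff.1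
    (hyN'.and (hea.eventually_analyticAt.and
      ((hea.fderiv.continuousAt.eventually_ne hed).and heq.eventually_nhds)))
  let G : ι → E → Prop := fun i y => (∀ᶠ z in 𝓝 y, b i z = 0) ∨
    ∃ (k : ℕ) (u : E → ℂ), AnalyticAt ℂ u y ∧ u y ≠ 0 ∧ ∀ᶠ z in 𝓝 y, b i z = e z ^ k * u z
  have key := finite_dense (Finset.univ : Finset ι) {z | e z = 0} W G (by
      rintro i z (h | ⟨k, u, h1, h2, h3⟩)
      · filter_upwards [h.eventually_nhds] with w hw using Or.inl hw
      · filter_upwards [h1.eventually_analyticAt, h1.continuousAt.eventually_ne h2,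
          h3.eventually_nhds] with w hw1 hw2 hw3 using Or.inr ⟨k, u, hw1, hw2, hw3⟩) hWo (by
      intro i z hzW hz0
      obtain ⟨hzN, hea', hed', _⟩ := hW z hzW
      have hbz : AnalyticAt ℂ (b i) z := (hN z hzN).1 i
      by_cases hz : ∀ᶠ w in 𝓝 z, b i w = 0
      · intro hcon
        exact hcon.self_of_nhds ⟨hz0, Or.inl hz⟩
      · obtain ⟨k, u, hu, hbu, hfr⟩ := exists_pow hea' hz0 hed' hbz hz
        refine (hfr.and_eventually (hu.eventually_analyticAt.and hbu.eventually_nhds)).mono ?_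
        rintro w ⟨⟨h1, h2⟩, h3, h4⟩
        exact ⟨h1, Or.inr ⟨k, u, h3, h2, h4⟩⟩) y hyW hey
  obtain ⟨z, ⟨hz0, hz⟩, hzW⟩ := (key.and_eventually (hWo.mem_nhds hyW)).exists
  obtain ⟨hzN, hea', hed', heq'⟩ := hW z hzW
  exact ⟨z, (hN z hzN).2, heq'.self_of_nhds.2 hz0, e, hea', hz0, hed', heq',
    fun i => hz i (Finset.mem_univ i)⟩

end Vale.Agent.P281.H413.TZ
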